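import Vale.Agent.P220Z.Abs.Sub

/-!
# P220: the abstract cotangent bundle and the one in the Euclidean space
-/

open Set Filter Topology Bundle
open scoped ContDiff Manifold

namespace Vale.Agent.P220Z.Abs

open Vale.Agent.P220.R2

variable {E V : Type} [NormedAddCommGroup E] [NormedSpace ℝ E] [NormedAddCommGroup V]
  [InnerProductSpace ℝ V]

/-- the inner product -/
noncomputable def flat : V →L[ℝ] V →L[ℝ] ℝ := innerSL ℝ

theorem flat_apply (p v : V) : flat p v = inner ℝ p v := rfl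

/-- the Gram form -/
noncomputable def gram (A : E →L[ℝ] V) : E →L[ℝ] E →L[ℝ] ℝ := flat.bilinearComp A A

theorem gram_apply (A : E →L[ℝ] V) (u v : E) : gram A u v = inner ℝ (A u) (A v) := rfl

/-- the vector in the range of `A` that represents a form -/
noncomputable def sol (A : E →L[ℝ] V) (ξ : E →L[ℝ] ℝ) : V := A ((gram A).inverse ξ)

variable [FiniteDimensional ℝ E]

theorem gram_inv {A : E →L[ℝ] V} (hA : Function.Injective A) : (gram A).IsInvertible := by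
  have h1 : Function.Injective (gram A : E →ₗ[ℝ] E →L[ℝ] ℝ) := by
    refine (injective_iff_map_eq_zero _).2 fun u hu => hA ?_
    have h2 : inner ℝ (A u) (A u) = 0 := congrArg (fun C : E →L[ℝ] ℝ => C u) hu
    rw [map_zero, inner_self_eq_zero.1 h2]
  have h2 : Module.finrank ℝ E = Module.finrank ℝ (E →L[ℝ] ℝ) := by
    rw [← (LinearMap.toContinuousLinearMap (𝕜 := ℝ) (E := E) (F' := ℝ)).finrank_eq,
      Module.finrank_linearMap, Module.finrank_self, mul_one]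
  exact ⟨(LinearMap.linearEquivOfInjective _ h1 h2).toContinuousLinearEquiv, rfl⟩

theorem sol_eq {A : E →L[ℝ] V} (hA : Function.Injective A) {ξ : E →L[ℝ] ℝ} {u : E}
    (h : ∀ v, inner ℝ (A u) (A v) = ξ v) : sol A ξ = A u := by
  rw [sol, (gram_inv hA).inverse_apply_eq.2 (ContinuousLinearMap.ext h).symm]

theorem sol_inner {A : E →L[ℝ] V} (hA : Function.Injective A) (ξ : E →L[ℝ] ℝ) (v : E) :
    inner ℝ (sol A ξ) (A v) = ξ v :=
  (congrArg (fun C : E →L[ℝ] ℝ => C v) ((gram_inv hA).inverse_apply_eq.1 rfl)).symm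

omit [InnerProductSpace ℝ V] in
theorem inv_smooth {X : Type} [NormedAddCommGroup X] [NormedSpace ℝ X] [NormedSpace ℝ V]
    {G : X → E →L[ℝ] V} {ξ : X → V} {x : X} (hG : ContDiffAt ℝ ∞ G x) (hξ : ContDiffAt ℝ ∞ ξ x)
    (h : (G x).IsInvertible) : ContDiffAt ℝ ∞ (fun y => (G y).inverse (ξ y)) x := by
  have := FiniteDimensional.complete ℝ E
  exact (h.contDiffAt_map_inverse.comp x hG).clm_apply hξ

theorem sol_smooth {A : E →L[ℝ] V} (hA : Function.Injective A) (ξ : E →L[ℝ] ℝ) :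
    ContDiffAt ℝ ∞ (fun y : (E →L[ℝ] V) × (E →L[ℝ] ℝ) => sol y.1 y.2) (A, ξ) := by
  have h1 : ContDiff ℝ ∞ (gram : (E →L[ℝ] V) → _) :=
    contDiff_clm_apply_iff.2 fun u => contDiff_clm_apply_iff.2 fun v =>
      (contDiff_id.clm_apply contDiff_const).inner ℝ (contDiff_id.clm_apply contDiff_const)
  exact contDiffAt_fst.clm_apply
    (inv_smooth (h1.comp contDiff_fst).contDiffAt contDiffAt_snd (gram_inv hA))

variable {M : Type} [TopologicalSpace M] [ChartedSpace E M] [IsManifold 𝓘(ℝ, E) ∞ M]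

variable (E) in
/-- the change from the chart at `x₀` to the tangent space at `x` -/
noncomputable def tr (x₀ x : M) : E →L[ℝ] TangentSpace 𝓘(ℝ, E) x :=
  (trivializationAt E (TangentSpace 𝓘(ℝ, E)) x₀).symmL ℝ x

omit [FiniteDimensional ℝ E] in
theorem tr_bij (x₀ : M) : ∀ᶠ x in 𝓝 x₀, Function.Bijective (tr E x₀ x) := by
  filter_upwards [(trivializationAt E (TangentSpace 𝓘(ℝ, E)) x₀).open_baseSet.mem_nhds
    (mem_baseSet_trivializationAt E _ x₀)] with x hx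
  exact Function.bijective_iff_has_inverse.2 ⟨_,
    (trivializationAt E (TangentSpace 𝓘(ℝ, E)) x₀).continuousLinearMapAt_symmL (R := ℝ) hx,
    (trivializationAt E (TangentSpace 𝓘(ℝ, E)) x₀).symmL_continuousLinearMapAt (R := ℝ) hx⟩

omit [FiniteDimensional ℝ E] in
theorem coord_eq (x₀ x : M) (ξ : TangentSpace 𝓘(ℝ, E) x →L[ℝ] Trivial M ℝ x) :
    ContinuousLinearMap.inCoordinates E (TangentSpace 𝓘(ℝ, E)) ℝ (Trivial M ℝ) x₀ x x₀ x ξ =
      ξ.comp (tr E x₀ x) := by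
  ext v
  simp [ContinuousLinearMap.inCoordinates, tr]

/-- the coordinates of a covector in the chart at `x₀` -/
noncomputable def cv (x₀ : M) (ζ : Cot E M) : E →L[ℝ] ℝ := ζ.2.comp (tr E x₀ ζ.1)

omit [FiniteDimensional ℝ E] in
theorem cot_iff {E' H' N : Type} [NormedAddCommGroup E'] [NormedSpace ℝ E'] [TopologicalSpace H']
    {I : ModelWithCorners ℝ E' H'} [TopologicalSpace N] [ChartedSpace H' N] (f : N → Cot E M)
    (y₀ : N) : ContMDiffAt I (IC E) ∞ f y₀ ↔ ContMDiffAt I 𝓘(ℝ, E) ∞ (fun y => (f y).1) y₀ ∧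
      ContMDiffAt I 𝓘(ℝ, E →L[ℝ] ℝ) ∞ (fun y => cv (f y₀).1 (f y)) y₀ := by
  rw [contMDiffAt_hom_bundle]
  simp only [coord_eq]
  rfl

omit [FiniteDimensional ℝ E] in
theorem dj_smooth {j : M → V} (hj : ContMDiff 𝓘(ℝ, E) 𝓘(ℝ, V) ∞ j) (x₀ : M) :
    ContMDiffAt 𝓘(ℝ, E) 𝓘(ℝ, E →L[ℝ] V) ∞
      (fun x => (mvfderiv 𝓘(ℝ, E) j x).comp (tr E x₀ x)) x₀ := by
  refine ((hj x₀).mfderiv_const (m := ∞) (by simp)).congr_of_eventuallyEq
    (Eventually.of_forall fun x => ?_)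
  simp only [inTangentCoordinates, ContinuousLinearMap.inCoordinates,
    TangentBundle.continuousLinearMapAt_model_space]
  rfl

variable (E) in
/-- from the Euclidean space to the abstract bundle -/
noncomputable def Th (j : M → V) (R : V → M) (z : V × V) : Cot E M :=
  ⟨R z.1, (flat z.2).comp (mvfderiv 𝓘(ℝ, E) j (R z.1))⟩

/-- from the abstract bundle to the Euclidean space -/
noncomputable def Ps (j : M → V) (ζ : Cot E M) : V × V :=
  (j ζ.1, sol (E := E) (mvfderiv 𝓘(ℝ, E) j ζ.1) ζ.2)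

namespace Emb

variable {S U : Set V} {r : V → V} {j : M → V} {R : V → M} (h : Emb E S U r j R)

include h

omit [FiniteDimensional ℝ E] in
theorem Th_smooth {z : V × V} (hz : z.1 ∈ U) : ContMDiffAt 𝓘(ℝ, V × V) (IC E) ∞ (Th E j R) z := by
  have h1 : ContMDiffAt 𝓘(ℝ, V × V) 𝓘(ℝ, E) ∞ (fun y : V × V => R y.1) z :=
    (h.sR _ hz).comp z contDiffAt_fst.contMDiffAt
  refine (cot_iff _ _).2 ⟨h1, ?_⟩
  have h2 : ContMDiffAt 𝓘(ℝ, V × V) 𝓘(ℝ, V →L[ℝ] ℝ) ∞ (fun y : V × V => flat y.2) z :=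
    (flat.contDiff.comp contDiff_snd).contDiffAt.contMDiffAt
  exact h2.clm_comp ((dj_smooth h.sj (R z.1)).comp z h1)

omit [IsManifold 𝓘(ℝ, E) ∞ M] in
theorem Ps_inner (ζ : Cot E M) (v : TangentSpace 𝓘(ℝ, E) ζ.1) :
    inner ℝ (Ps j ζ).2 (mvfderiv 𝓘(ℝ, E) j ζ.1 v) = ζ.2 v :=
  sol_inner (E := E) (A := mvfderiv 𝓘(ℝ, E) j ζ.1) (h.dj_inj ζ.1) ζ.2 v

theorem Ps_smooth : ContMDiff (IC E) 𝓘(ℝ, V × V) ∞ (Ps (E := E) j) := by
  intro ζ₀
  obtain ⟨h1, h2⟩ := (cot_iff (I := IC E) id ζ₀).1 contMDiffAt_id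
  refine ((h.sj _).comp ζ₀ h1).prodMk_space ?_
  set A : Cot E M → E →L[ℝ] V := fun ζ => (mvfderiv 𝓘(ℝ, E) j ζ.1).comp (tr E ζ₀.1 ζ.1) with hA
  have h3 : ContMDiffAt (IC E) 𝓘(ℝ, E →L[ℝ] V) ∞ A ζ₀ := (dj_smooth h.sj ζ₀.1).comp ζ₀ h1
  have h4 : ∀ᶠ ζ in 𝓝 ζ₀, Function.Bijective (tr E ζ₀.1 ζ.1) :=
    h1.continuousAt.eventually (tr_bij (E := E) ζ₀.1)
  have h7 : ∀ ζ : Cot E M, Function.Bijective (tr E ζ₀.1 ζ.1) → Function.Injective (A ζ) :=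
    fun ζ hζ => (h.dj_inj ζ.1).comp hζ.1
  have h5 := ContDiffAt.comp_contMDiffAt (f := fun ζ => (A ζ, cv ζ₀.1 ζ))
    (sol_smooth (h7 _ h4.self_of_nhds) _) (h3.prodMk_space h2)
  refine h5.congr_of_eventuallyEq ?_
  filter_upwards [h4] with ζ hζ
  obtain ⟨u, hu⟩ := hζ.2 ((gram (E := E) (mvfderiv 𝓘(ℝ, E) j ζ.1)).inverse ζ.2)
  have h6 : sol (E := E) (mvfderiv 𝓘(ℝ, E) j ζ.1) ζ.2 = A ζ u :=
    (congrArg (mvfderiv 𝓘(ℝ, E) j ζ.1) hu).symm
  refine h6.trans (sol_eq (h7 ζ hζ) fun v => ?_).symm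
  rw [← h6]
  exact h.Ps_inner ζ _

omit [FiniteDimensional ℝ E] in
theorem Ps_mem (ζ : Cot E M) : Ps j ζ ∈ H57.Cot S := ⟨h.mem _, tan_of h.sj h.mem _ _⟩

omit [IsManifold 𝓘(ℝ, E) ∞ M] in
theorem Th_Ps (ζ : Cot E M) : Th E j R (Ps j ζ) = ζ := by
  have h1 : ∀ y, y = ζ.1 →
      (⟨y, (flat (Ps j ζ).2).comp (mvfderiv 𝓘(ℝ, E) j y)⟩ : Cot E M) = ζ := by
    rintro _ rfl
    exact congrArg (TotalSpace.mk ζ.1) (ContinuousLinearMap.ext fun v => h.Ps_inner ζ v)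
  exact h1 _ (h.Rj ζ.1)

omit [IsManifold 𝓘(ℝ, E) ∞ M] in
theorem Ps_Th [FiniteDimensional ℝ V] {z : V × V} (hz : z ∈ H57.Cot S) :
    Ps j (Th E j R z) = z := by
  have h1 := h.jR' hz.1
  obtain ⟨u, hu⟩ := h.dj_surj (R z.1) (h1.symm ▸ hz.2)
  refine Prod.ext h1 ((sol_eq (E := E) (A := mvfderiv 𝓘(ℝ, E) j (R z.1)) (h.dj_inj _) (u := u)
    fun v => ?_).trans hu)
  exact congrArg (fun p => inner ℝ p (mvfderiv 𝓘(ℝ, E) j (R z.1) v)) hu

theorem lam_eq (ζ : Cot E M) (v : TangentSpace (IC E) ζ) :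
    lam ζ v = H57.lam (Ps j ζ) (mvfderiv (IC E) (Ps j) ζ v) := by
  have h1 : MDifferentiableAt (IC E) 𝓘(ℝ, E) (TotalSpace.proj : Cot E M → M) ζ :=
    (contMDiff_proj _ (n := ∞) ζ).mdifferentiableAt (by simp)
  have h2 := mfderiv_comp ζ ((h.sj ζ.1).mdifferentiableAt (by simp)) h1
  have h3 := (ContinuousLinearMap.fst ℝ V V).hasMFDerivAt.comp ζ
    ((h.Ps_smooth ζ).mdifferentiableAt (by simp)).hasMFDerivAt
  have h4 : (mvfderiv (IC E) (Ps j) ζ v).1 =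
      mvfderiv 𝓘(ℝ, E) j ζ.1 (mfderiv (IC E) 𝓘(ℝ, E) TotalSpace.proj ζ v) :=
    congrArg (fun C : TangentSpace (IC E) ζ →L[ℝ] V => C v) (h3.mfderiv.symm.trans h2)
  rw [H57.lam, h4]
  exact (h.Ps_inner ζ _).symm

theorem om_eq (ζ : Cot E M) (u v : TangentSpace (IC E) ζ) :
    om ζ u v = H57.om (mvfderiv (IC E) (Ps j) ζ u) (mvfderiv (IC E) (Ps j) ζ v) :=
  dOne_pull h.Ps_smooth h.lam_eq ζ u v

end Emb

end Vale.Agent.P220Z.Abs
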