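import Mathlib

/-!
# P220: cotangent bundles, exact Lagrangians and Hamiltonian isotopies for abstract manifolds

Manifolds, tangent spaces, differentials and the bundle of linear forms are the ones of Mathlib.
-/

open Set Bundle
open scoped ContDiff Manifold

namespace Vale.Agent.P220Z.Abs

section Forms

variable {E H N : Type} [NormedAddCommGroup E] [NormedSpace ℝ E] [TopologicalSpace H]
  (I : ModelWithCorners ℝ E H) [TopologicalSpace N] [ChartedSpace H N]

/-- The coefficient `α(∂_v)` of the one-form `α` in the chart at `x`, as a function of the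
coordinates `y`; here `∂_v` is the vector field that is constant and equal to `v` in this chart. -/
noncomputable def coef (α : ∀ x : N, TangentSpace I x →L[ℝ] ℝ) (x : N) (v y : E) : ℝ :=
  α ((extChartAt I x).symm y) (mfderiv 𝓘(ℝ, E) I (extChartAt I x).symm y v)

/-- The exterior derivative of the one-form `α` at `x`, computed in the chart at `x`:
`dα(u, v) = ∂_u α(∂_v) - ∂_v α(∂_u)`. -/
noncomputable def dOne (α : ∀ x : N, TangentSpace I x →L[ℝ] ℝ) (x : N) (u v : TangentSpace I x) :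
    ℝ :=
  fderiv ℝ (coef I α x (mvfderiv I (extChartAt I x) x v)) (extChartAt I x x)
      (mvfderiv I (extChartAt I x) x u) -
    fderiv ℝ (coef I α x (mvfderiv I (extChartAt I x) x u)) (extChartAt I x x)
      (mvfderiv I (extChartAt I x) x v)

end Forms

variable (E : Type) [NormedAddCommGroup E] [NormedSpace ℝ E]

/-- The model `E × E*` of the cotangent bundle of a manifold with the model `E`. -/
noncomputable abbrev IC := 𝓘(ℝ, E).prod 𝓘(ℝ, E →L[ℝ] ℝ)

variable (Q : Type) [TopologicalSpace Q] [ChartedSpace E Q] [IsManifold 𝓘(ℝ, E) ∞ Q]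

/-- The cotangent bundle `T*Q`: the total space of the bundle of the linear forms on the tangent
spaces, with the smooth structure of Mathlib. -/
abbrev Cot : Type :=
  TotalSpace (E →L[ℝ] ℝ) fun q : Q => TangentSpace 𝓘(ℝ, E) q →L[ℝ] Trivial Q ℝ q

variable {E Q}

/-- The canonical one-form `λ_(q,p)(v) = p(dπ(v))`. -/
noncomputable def lam (z : Cot E Q) : TangentSpace (IC E) z →L[ℝ] ℝ :=
  z.2.comp (mfderiv (IC E) 𝓘(ℝ, E) TotalSpace.proj z)

/-- The symplectic form `ω = dλ`. -/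
noncomputable def om (z : Cot E Q) (u v : TangentSpace (IC E) z) : ℝ := dOne (IC E) lam z u v

/-- `ι` is a smooth embedding of the manifold `M`, which has the same dimension as `Q`, as an exact
Lagrangian submanifold. -/
structure IsExactLag {M : Type} [TopologicalSpace M] [ChartedSpace E M] (ι : M → Cot E Q) :
    Prop where
  /-- smooth -/
  smooth : ContMDiff 𝓘(ℝ, E) (IC E) ∞ ι
  /-- an immersion -/
  imm : ∀ x, Function.Injective (mfderiv 𝓘(ℝ, E) (IC E) ι x)
  /-- a homeomorphism onto its image -/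
  emb : Topology.IsEmbedding ι
  /-- `ω` vanishes on the image -/
  lag : ∀ x u v, om (ι x) (mfderiv 𝓘(ℝ, E) (IC E) ι x u) (mfderiv 𝓘(ℝ, E) (IC E) ι x v) = 0
  /-- `λ` is exact on the image -/
  exact : ∃ f : M → ℝ, ContMDiff 𝓘(ℝ, E) 𝓘(ℝ) ∞ f ∧
    ∀ x v, mvfderiv 𝓘(ℝ, E) f x v = lam (ι x) (mfderiv 𝓘(ℝ, E) (IC E) ι x v)

/-- `H` is a smooth function on `[0, 1] × T*Q` with support in one compact subset of `T*Q`. -/
structure IsHam (H : ℝ × Cot E Q → ℝ) : Prop where
  /-- smooth -/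
  smooth : ContMDiffOn (𝓘(ℝ).prod (IC E)) 𝓘(ℝ) ∞ H (Icc 0 1 ×ˢ univ)
  /-- compact support -/
  supp : ∃ K, IsCompact K ∧ ∀ t ∈ Icc (0 : ℝ) 1, ∀ z ∉ K, H (t, z) = 0

/-- `φ t`, `0 ≤ t ≤ 1`, is the flow of the Hamiltonian vector field `X` of `H`, which is given by
`ι_X ω = -dH`. -/
def IsFlow (H : ℝ × Cot E Q → ℝ) (φ : ℝ → Cot E Q → Cot E Q) : Prop :=
  ∃ X : ℝ → ∀ z : Cot E Q, TangentSpace (IC E) z,
    (∀ t ∈ Icc (0 : ℝ) 1, ∀ z v, om z (X t z) v = -mvfderiv (IC E) (fun y => H (t, y)) z v) ∧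
    (∀ z, φ 0 z = z) ∧ ∀ z, ∀ t ∈ Icc (0 : ℝ) 1,
      HasMFDerivWithinAt 𝓘(ℝ) (IC E) (fun s => φ s z) (Icc 0 1) t
        ((1 : ℝ →L[ℝ] ℝ).smulRight (X t (φ t z)))

/-- `L` is Hamiltonian isotopic to the zero section. -/
def HamIso (L : Set (Cot E Q)) : Prop :=
  ∃ (H : ℝ × Cot E Q → ℝ) (φ : ℝ → Cot E Q → Cot E Q), IsHam H ∧ IsFlow H φ ∧
    φ 1 '' {z | z.2 = 0} = L

end Vale.Agent.P220Z.Abs
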