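import Vale.Agent.P220Z.Abs.Main
import Vale.Agent.P220Z.Hs.Cut
import Vale.Agent.P220.R2.H481.HamExt

/-!
# P220: every compactly supported Hamiltonian has a flow
-/

open Set Filter Topology Bundle
open scoped ContDiff Manifold

namespace Vale.Agent.P220Z.Abs

open Vale.Agent.P220.R2 Vale.Agent.P220.R2.H481

theorem st_pos {t : ℝ} (h : t ∈ Ioo (0 : ℝ) 1) : 0 < deriv Real.smoothTransition t :=
  Vale.Agent.P220Z.Hs.S'_pos h.1 h.2

/-- the inverse of the smooth step -/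
theorem exists_inv : ∃ γ : ℝ → ℝ, Continuous γ ∧ γ 0 = 0 ∧ (∀ t, γ t ∈ Icc (0 : ℝ) 1) ∧
    (∀ t ∈ Icc (0 : ℝ) 1, Real.smoothTransition (γ t) = t) ∧
    ∀ t ∈ Ioo (0 : ℝ) 1, deriv Real.smoothTransition (γ t) ≠ 0 ∧
      HasDerivAt γ (deriv Real.smoothTransition (γ t))⁻¹ t := by
  have hc := Real.smoothTransition.continuous
  have hm : StrictMonoOn Real.smoothTransition (Icc 0 1) :=
    strictMonoOn_of_deriv_pos (convex_Icc 0 1) hc.continuousOn fun t ht =>
      st_pos (by rwa [interior_Icc] at ht)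
  let b : Icc (0 : ℝ) 1 → Icc (0 : ℝ) 1 := fun t => ⟨_, Top.Gen.mem_I t⟩
  have hb : Function.Bijective b := by
    refine ⟨fun s t h => Subtype.ext (hm.injOn s.2 t.2 (congrArg Subtype.val h)), fun t => ?_⟩
    have h1 := intermediate_value_Icc zero_le_one hc.continuousOn
    rw [Real.smoothTransition.zero, Real.smoothTransition.one] at h1
    obtain ⟨s, hs, e⟩ := h1 t.2
    exact ⟨⟨s, hs⟩, Subtype.ext e⟩
  have hbc : Continuous (Equiv.ofBijective b hb) :=
    (hc.comp continuous_subtype_val).subtype_mk _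
  let e := hbc.homeoOfEquivCompactToT2
  let γ : ℝ → ℝ := fun t => e.symm (projIcc 0 1 zero_le_one t)
  have hγ : Continuous γ := continuous_subtype_val.comp (e.symm.continuous.comp continuous_projIcc)
  have h1 : ∀ t, γ t ∈ Icc (0 : ℝ) 1 := fun t => (e.symm _).2
  have h2 : ∀ t ∈ Icc (0 : ℝ) 1, Real.smoothTransition (γ t) = t := fun t ht => by
    have h3 := congrArg Subtype.val (e.apply_symm_apply (projIcc 0 1 zero_le_one t))
    exact h3.trans (congrArg Subtype.val (projIcc_of_mem _ ht))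
  refine ⟨γ, hγ, hm.injOn (h1 0) (left_mem_Icc.2 zero_le_one) ?_, h1, h2, fun t ht => ?_⟩
  · rw [h2 0 (left_mem_Icc.2 zero_le_one), Real.smoothTransition.zero]
  · have h3 := h2 t (Ioo_subset_Icc_self ht)
    have h4 : γ t ∈ Ioo (0 : ℝ) 1 := by
      refine ⟨(h1 t).1.lt_of_ne fun h => ?_, (h1 t).2.lt_of_ne fun h => ?_⟩
      · rw [← h, Real.smoothTransition.zero] at h3
        exact ht.1.ne h3
      · rw [h, Real.smoothTransition.one] at h3
        exact ht.2.ne' h3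
    refine ⟨(st_pos h4).ne', HasDerivAt.of_local_left_inverse hγ.continuousAt
      ((Real.smoothTransition.contDiff (n := 1)).differentiable (by simp) _).hasDerivAt
      (st_pos h4).ne' ?_⟩
    filter_upwards [Icc_mem_nhds ht.1 ht.2] with s hs
    exact h2 s hs

theorem der_Icc {F : Type} [NormedAddCommGroup F] [NormedSpace ℝ F] {c c' : ℝ → F}
    (hc : Continuous c) (hc' : ContinuousOn c' (Icc 0 1))
    (h : ∀ t ∈ Ioo (0 : ℝ) 1, HasDerivAt c (c' t) t) {t : ℝ} (ht : t ∈ Icc (0 : ℝ) 1) :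
    HasDerivWithinAt c (c' t) (Icc 0 1) t := by
  have h1 : Tendsto (fun s => fderiv ℝ c s) (𝓝[Ioo 0 1] t)
      (𝓝 (ContinuousLinearMap.toSpanSingleton ℝ (c' t))) := by
    have h2 : Tendsto c' (𝓝[Ioo 0 1] t) (𝓝 (c' t)) := (hc' t ht).mono Ioo_subset_Icc_self
    have h3 : Continuous fun v : F => ContinuousLinearMap.toSpanSingleton ℝ v :=
      (ContinuousLinearMap.smulRightL ℝ ℝ F 1).continuous
    refine ((h3.tendsto _).comp h2).congr' ?_
    filter_upwards [self_mem_nhdsWithin] with s hs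
    exact (h s hs).hasFDerivAt.fderiv.symm
  have h4 := hasFDerivWithinAt_closure_of_tendsto_fderiv
    (fun s hs => (h s hs).differentiableAt.differentiableWithinAt) (convex_Ioo 0 1) isOpen_Ioo
    (fun s _ => hc.continuousWithinAt) h1
  rw [closure_Ioo zero_ne_one] at h4
  exact hasDerivWithinAt_iff_hasFDerivWithinAt.2 h4

variable {V : Type} [NormedAddCommGroup V] [InnerProductSpace ℝ V] [FiniteDimensional ℝ V]

theorem vf_cont {P : V → V →L[ℝ] V} (hP : ContDiff ℝ ∞ P) :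
    Continuous fun y : (V × V) × (V × V →L[ℝ] ℝ) => vf P y.1 y.2 := by
  have h1 := hP.continuous
  have h2 := hP.continuous_fderiv (by simp)
  have h3 : Continuous fun y : (V × V) × (V × V →L[ℝ] ℝ) => (fderiv ℝ P y.1.1).flip y.1.2 :=
    ((ContinuousLinearMap.flipₗᵢ ℝ V V V).continuous.comp (h2.comp (by fun_prop))).clm_apply
      (by fun_prop)
  have h4 : Continuous fun y : (V × V) × (V × V →L[ℝ] ℝ) => vfx P y.1 y.2 := by
    unfold vfx
    fun_prop
  unfold vf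
  fun_prop

/-- The flow in the Euclidean space of a function that is smooth on `[0, 1] × W`. -/
theorem exists_amb {S U : Set V} {r : V → V} (hr : H57.IsRet S U r) {P : V → V →L[ℝ] V}
    (hP : IsProj S P) {h : ℝ × (V × V) → ℝ} (hh : ContDiffOn ℝ ∞ h (Icc 0 1 ×ˢ U ×ˢ univ))
    {K : Set (V × V)} (hK : IsCompact K)
    (hK0 : ∀ t ∈ Icc (0 : ℝ) 1, ∀ z ∈ cotangent S, z ∉ K → h (t, z) = 0) :
    ∃ φ : ℝ → V × V → V × V, ∀ z ∈ cotangent S, φ 0 z = z ∧ (∀ t, φ t z ∈ cotangent S) ∧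
      ∀ t ∈ Icc (0 : ℝ) 1, HasDerivWithinAt (fun s => φ s z)
        (vf P (φ t z) (fderiv ℝ (fun y => h (t, y)) (φ t z))) (Icc 0 1) t := by
  set β := Real.smoothTransition with hβ
  have hβs : ContDiff ℝ ∞ β := Real.smoothTransition.contDiff
  have hβd : ContDiff ℝ ∞ (deriv β) := (contDiff_infty_iff_deriv.1 hβs).2
  have hW : IsOpen (U ×ˢ (univ : Set V)) := hr.isOpen.prod isOpen_univ
  have hSW : ∀ z ∈ cotangent S, z ∈ U ×ˢ (univ : Set V) := fun z hz => ⟨hr.sub hz.1, mem_univ _⟩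
  obtain ⟨G, hG, hGe⟩ := H57.glue (S := Prod.snd ⁻¹' cotangent S)
    ((cotangent_closed hr.isClosed hP).preimage continuous_snd)
    (fun y : ℝ × (V × V) => deriv β y.1 * h (β y.1, y.2)) fun y hy =>
      ⟨univ ×ˢ U ×ˢ univ, prod_mem_nhds univ_mem (hW.mem_nhds (hSW _ hy)), _,
        (hβd.comp contDiff_fst).contDiffOn.mul (hh.comp
          ((hβs.comp contDiff_fst).prodMk contDiff_snd).contDiffOn
          fun x hx => ⟨Top.Gen.mem_I _, hx.2⟩), fun _ _ _ => rfl⟩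
  obtain ⟨ψ, hψ⟩ := H481.IsHam.exists_hflow hr.isClosed hP (H := G) ⟨hG, K, hK, fun s z hz hzK => by
    rw [hGe (s, z) hz, hK0 _ (Top.Gen.mem_I _) z hz hzK, mul_zero]⟩
  obtain ⟨γ, hγ, hγ0, hγI, hγβ, hγd⟩ := exists_inv
  have hU : UniqueDiffOn ℝ (Icc (0 : ℝ) 1 ×ˢ U ×ˢ (univ : Set V)) :=
    uniqueDiffOn_Icc_zero_one.prod hW.uniqueDiffOn
  set D : ℝ × (V × V) → V × V →L[ℝ] ℝ := fun y =>
    (fderivWithin ℝ h (Icc 0 1 ×ˢ U ×ˢ univ) y).comp (ContinuousLinearMap.inr ℝ ℝ (V × V)) with hD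
  have hDc : ContinuousOn D (Icc 0 1 ×ˢ U ×ˢ univ) :=
    (hh.continuousOn_fderivWithin hU (by simp)).clm_comp continuousOn_const
  have hDe : ∀ t ∈ Icc (0 : ℝ) 1, ∀ z ∈ cotangent S,
      HasFDerivAt (fun y => h (t, y)) (D (t, z)) z := fun t ht z hz =>
    (((hh.differentiableOn (by simp) (t, z) ⟨ht, hSW z hz⟩).hasFDerivWithinAt).comp z
      (hasFDerivAt_prodMk_right t z).hasFDerivWithinAt
      (s := U ×ˢ univ) fun y hy => ⟨ht, hy⟩).hasFDerivAt (hW.mem_nhds (hSW z hz))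
  have hv : ∀ s, ∀ z ∈ cotangent S, vf P z (dH G (s, z)) = deriv β s • vf P z (D (β s, z)) := by
    intro s z hz
    have h1 : vf P z (dH G (s, z) + (-deriv β s) • D (β s, z)) = 0 := by
      refine hP.vf_eq_zero hz ?_
      rintro w ⟨c, -, hc, rfl, hw⟩
      have h5 : ContDiff ℝ ∞ fun y => G (s, y) := hG.comp (contDiff_const.prodMk contDiff_id)
      have h2 := (h5.differentiable (by simp) (c 0)).hasFDerivAt.comp_hasDerivAt 0 hw
      have h3 := ((hDe _ (Top.Gen.mem_I s) _ hz).comp_hasDerivAt 0 hw).const_mul (deriv β s)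
      have h4 := h2.unique (h3.congr_of_eventuallyEq
        (Eventually.of_forall fun t => hGe (s, c t) (hc t)))
      rw [← dH_eq hG, add_apply, h4, smul_apply, smul_eq_mul, neg_mul, add_neg_cancel]
    rw [vf_add, vf_smul, neg_smul] at h1
    exact add_neg_eq_zero.1 h1
  refine ⟨fun t z => ψ (γ t, z), fun z hz => ⟨by beta_reduce; rw [hγ0, hψ.zero],
    fun t => hψ.mem z hz _ (hγI t), fun t ht => ?_⟩⟩
  have hm := fun t => hψ.mem z hz _ (hγI t)
  have hc : Continuous fun t => ψ (γ t, z) := hψ.smooth.continuous.comp (by fun_prop)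
  rw [(hDe t ht _ (hm t)).fderiv]
  refine der_Icc (c' := fun t => vf P (ψ (γ t, z)) (D (t, ψ (γ t, z)))) hc
    ((vf_cont hP.smooth).comp_continuousOn (hc.continuousOn.prodMk (hDc.comp
      (continuous_id.prodMk hc).continuousOn fun s hs => ⟨hs, hSW _ (hm s)⟩))) (fun s hs => ?_) ht
  have h1 := (hψ.deriv z hz _ (hγI s)).scomp s (hγd s hs).2
  rwa [hv _ _ (hm s), smul_smul, inv_mul_cancel₀ (hγd s hs).1, one_smul,
    show β (γ s) = s from hγβ s (Ioo_subset_Icc_self hs)] at h1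

variable {E : Type} [NormedAddCommGroup E] [NormedSpace ℝ E] [FiniteDimensional ℝ E]
  {Q : Type} [TopologicalSpace Q] [ChartedSpace E Q] [IsManifold 𝓘(ℝ, E) ∞ Q]
  {S U : Set V} {r : V → V} {j : Q → V} {R : V → Q}

theorem Emb.dPs_dTh (h : Emb E S U r j R) {z w : V × V} (hz : z ∈ cotangent S)
    (hw : w ∈ tan (cotangent S) z) : mvfderiv (IC E) (Ps j) (Th E j R z)
      (mfderiv 𝓘(ℝ, V × V) (IC E) (Th E j R) z w) = w := by
  obtain ⟨c, -, hc, rfl, hw⟩ := hw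
  have h1 := ((h.Th_smooth (h.ret.sub hz.1)).mdifferentiableAt (by simp)).hasMFDerivAt.comp 0
    hw.hasFDerivAt.hasMFDerivAt
  have h2 := hasDerivWithinAt_univ.1 (der_within h.Ps_smooth h1.hasMFDerivWithinAt)
  rw [show Ps j ∘ Th E j R ∘ c = c from funext fun t => h.Ps_Th (cotangent_eq_Cot S ▸ hc t)] at h2
  refine Eq.trans ?_ (h2.unique hw)
  exact congrArg (fun v => mvfderiv (IC E) (Ps j) (Th E j R (c 0))
    (mfderiv 𝓘(ℝ, V × V) (IC E) (Th E j R) (c 0) v)) (one_smul ℝ w).symm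

/-- Every compactly supported Hamiltonian has a flow. -/
theorem Emb.flow (h : Emb E S U r j R) {H : ℝ × Cot E Q → ℝ} (hH : IsHam H) :
    ∃ φ, IsFlow H φ := by
  obtain ⟨hs, K, hK, hK0⟩ := hH
  obtain ⟨P, hP⟩ := exists_proj_of_isRet h.ret
  have hm : ∀ ζ : Cot E Q, Ps j ζ ∈ cotangent S := fun ζ => cotangent_eq_Cot S ▸ h.Ps_mem ζ
  have hT : ∀ z ∈ cotangent S, MDifferentiableAt 𝓘(ℝ, V × V) (IC E) (Th E j R) z := fun z hz =>
    (h.Th_smooth (h.ret.sub hz.1)).mdifferentiableAt (by simp)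
  have hPT : ∀ z ∈ cotangent S, Ps j (Th E j R z) = z := fun z hz =>
    h.Ps_Th (cotangent_eq_Cot S ▸ hz)
  obtain ⟨φ, hφ⟩ := exists_amb h.ret hP (h := fun y => H (y.1, Th E j R y.2))
    (contMDiffOn_iff_contDiffOn.1 (hs.comp (fun y hy => (contDiffAt_fst.contMDiffAt.prodMk
      ((h.Th_smooth hy.2.1).comp y contDiffAt_snd.contMDiffAt)).contMDiffWithinAt)
      fun y hy => ⟨hy.1, mem_univ _⟩)) (hK.image h.Ps_smooth.continuous)
    fun t ht z hz hzK => hK0 t ht _ fun h1 => hzK ⟨_, h1, hPT z hz⟩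
  set W : ℝ → V × V → V × V := fun t z => vf P z (fderiv ℝ (fun y => H (t, Th E j R y)) z) with hW
  have hX : ∀ t, ∀ z ∈ cotangent S, ∀ ζ, ζ = Th E j R z →
      (mfderiv 𝓘(ℝ, V × V) (IC E) (Th E j R) (Ps j ζ) (W t (Ps j ζ)) : E × (E →L[ℝ] ℝ)) =
        mfderiv 𝓘(ℝ, V × V) (IC E) (Th E j R) z (W t z) := by
    rintro t z hz _ rfl
    rw [hPT z hz]
  refine ⟨fun t ζ => Th E j R (φ t (Ps j ζ)),
    fun t ζ => mfderiv 𝓘(ℝ, V × V) (IC E) (Th E j R) (Ps j ζ) (W t (Ps j ζ)), fun t ht ζ v => ?_,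
    fun ζ => by beta_reduce; rw [(hφ _ (hm ζ)).1, h.Th_Ps], fun ζ t ht => ?_⟩
  · have h1 : ∀ ξ, ξ = Th E j R (Ps j ζ) → mvfderiv (IC E) (Ps j) ξ
        (mfderiv 𝓘(ℝ, V × V) (IC E) (Th E j R) (Ps j ζ) (W t (Ps j ζ))) = W t (Ps j ζ) := by
      rintro _ rfl
      exact h.dPs_dTh (hm ζ) (hP.vf_tan (hm ζ) _)
    have h2 : mvfderiv (IC E) (Ps j) ζ v ∈ tan (cotangent S) (Ps j ζ) :=
      (tan_eq_Tan (cotangent S) (Ps j ζ)).symm ▸ tan_of h.Ps_smooth hm ζ v
    have h3 : ContMDiff (IC E) 𝓘(ℝ) ∞ fun y => H (t, y) := contMDiffOn_univ.1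
      (hs.comp (contMDiff_const.prodMk contMDiff_id).contMDiffOn fun y _ => ⟨ht, mem_univ _⟩)
    have h4 := mfderiv_comp ζ (((h3 _).mdifferentiableAt (by simp)).comp _ (hT _ (hm ζ)))
      ((h.Ps_smooth ζ).mdifferentiableAt (by simp))
    rw [mfderiv_eq_fderiv, show ((fun y => H (t, y)) ∘ Th E j R) ∘ Ps j = fun y => H (t, y) from
      funext fun y => congrArg (fun x => H (t, x)) (h.Th_Ps y)] at h4
    exact (h.om_eq ζ _ v).trans ((congrArg (H57.om · _) (h1 ζ (h.Th_Ps ζ).symm)).trans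
      ((hP.vf_om (hm ζ) _ h2).trans
        (congrArg (fun C : TangentSpace (IC E) ζ →L[ℝ] ℝ => -C v) h4.symm)))
  · obtain ⟨-, h1, h2⟩ := hφ _ (hm ζ)
    refine ((hT _ (h1 t)).hasMFDerivAt.comp_hasMFDerivWithinAt t
      (h2 t ht).hasFDerivWithinAt.hasMFDerivWithinAt).congr_mfderiv
      (ContinuousLinearMap.ext fun a => ?_)
    exact (map_smul (mfderiv 𝓘(ℝ, V × V) (IC E) (Th E j R) (φ t (Ps j ζ))) (show ℝ from a) _).trans
      (congrArg (fun x : E × (E →L[ℝ] ℝ) => (show ℝ from a) • x) (hX t _ (h1 t) _ rfl).symm)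

/-- The transfer to abstract manifolds, with the existence of the flows. -/
theorem transfer_flow {n : ℕ} (hn : Module.finrank ℝ E = n) {S : Set V} {L : Set (V × V)}
    (hS : H57.IsClosedManifold n S) (hL : H57.IsExactLagrangian n S L) (hH : ¬ Top.HamIsoG S L) :
    ∃ (Q : Type) (_ : TopologicalSpace Q) (_ : T2Space Q) (_ : CompactSpace Q)
      (_ : ConnectedSpace Q) (_ : ChartedSpace E Q) (_ : IsManifold 𝓘(ℝ, E) ∞ Q)
      (M : Type) (_ : TopologicalSpace M) (_ : T2Space M) (_ : CompactSpace M)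
      (_ : ConnectedSpace M) (_ : ChartedSpace E M) (_ : IsManifold 𝓘(ℝ, E) ∞ M)
      (ι : M → Cot E Q), IsExactLag ι ∧ ¬ HamIso (range ι) ∧
        ∀ H : ℝ × Cot E Q → ℝ, IsHam H → ∃ φ, IsFlow H φ := by
  obtain ⟨Q, _, _, _, _, _, _, U, r, j, R, h⟩ := exists_emb hn hS
  obtain ⟨M, _, _, _, _, _, _, U', r', i, R', h'⟩ := exists_emb hn hL.closed
  obtain ⟨f, hf, he⟩ := hL.exact
  refine ⟨Q, inferInstance, inferInstance, inferInstance, inferInstance, inferInstance,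
    inferInstance, M, inferInstance, inferInstance, inferInstance, inferInstance, inferInstance,
    inferInstance, _, h.lag h' hL.sub hf he, fun h1 => hH ?_, fun H hH => h.flow hH⟩
  have h2 := h.ham h1
  rwa [← range_comp, show Ps j ∘ (fun x => Th E j R (i x)) = i from
    funext fun x => h.Ps_Th (hL.sub (h'.mem x)), h'.range_eq] at h2

end Vale.Agent.P220Z.Abs
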