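import Vale.Agent.P220Z.Abs.Defs
import Vale.Agent.P220Z.Top.Gen

/-!
# P220: curves with a given velocity, and the exterior derivative of a pulled back form
-/

open Set Filter Topology
open scoped ContDiff Manifold

namespace Vale.Agent.P220Z.Abs

open Vale.Agent.P220.R2

variable {E H N : Type} [NormedAddCommGroup E] [NormedSpace ℝ E] [TopologicalSpace H]
  {I : ModelWithCorners ℝ E H} [I.Boundaryless] [TopologicalSpace N] [ChartedSpace H N]
  [IsManifold I ∞ N] {F : Type} [NormedAddCommGroup F] [NormedSpace ℝ F]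

theorem symm_smooth (x : N) {y : E} (hy : y ∈ (extChartAt I x).target) :
    ContMDiffAt 𝓘(ℝ, E) I ∞ (extChartAt I x).symm y :=
  (contMDiffOn_extChartAt_symm x).contMDiffAt ((isOpen_extChartAt_target x).mem_nhds hy)

/-- a map read in the chart at `x` -/
theorem loc_smooth {j : N → F} (hj : ContMDiff I 𝓘(ℝ, F) ∞ j) (x : N) {y : E}
    (hy : y ∈ (extChartAt I x).target) : ContDiffAt ℝ ∞ (j ∘ (extChartAt I x).symm) y :=
  ((hj _).comp y (symm_smooth x hy)).contDiffAt

theorem loc_fderiv {j : N → F} (hj : ContMDiff I 𝓘(ℝ, F) ∞ j) (x : N) {y : E}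
    (hy : y ∈ (extChartAt I x).target) (v : E) : fderiv ℝ (j ∘ (extChartAt I x).symm) y v =
      mvfderiv I j ((extChartAt I x).symm y) (mfderiv 𝓘(ℝ, E) I (extChartAt I x).symm y v) := by
  have h := mfderiv_comp y ((hj _).mdifferentiableAt (by simp))
    ((symm_smooth (I := I) x hy).mdifferentiableAt (by simp))
  rw [mfderiv_eq_fderiv] at h
  exact congrArg (fun C : E →L[ℝ] F => C v) h

omit [I.Boundaryless] in
theorem chart_self (x : N) (v : TangentSpace I x) : mvfderiv I (extChartAt I x) x v = v := by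
  have h := mfderiv_extChartAt_self (I := I) (x := x)
  exact congrArg (fun C : E →L[ℝ] E => C v) h

omit [IsManifold I ∞ N] in
theorem loc_self {j : N → F} (hj : ContMDiff I 𝓘(ℝ, F) ∞ j) (x : N) (v : TangentSpace I x) :
    fderiv ℝ (j ∘ (extChartAt I x).symm) (extChartAt I x x) v = mvfderiv I j x v := by
  rw [((hj x).mdifferentiableAt (by simp)).mvfderiv, I.range_eq_univ, fderivWithin_univ]
  rfl

/-- The differential of a smooth map with values in `S` is tangent to `S`. -/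
theorem tan_of {j : N → F} (hj : ContMDiff I 𝓘(ℝ, F) ∞ j) {S : Set F} (hS : ∀ x, j x ∈ S) (x : N)
    (v : TangentSpace I x) : mvfderiv I j x v ∈ H57.Tan S (j x) := by
  obtain ⟨δ, hδ, hb⟩ := Metric.isOpen_iff.1 (isOpen_extChartAt_target (I := I) x) _
    (mem_extChartAt_target x)
  set w : E := v with hw
  set e := δ / (‖w‖ + 1) with he
  have he0 : 0 < e := by positivity
  set γ : ℝ → E := fun t => extChartAt I x x + (e * Real.sin (t / e)) • w with hγ
  have hγs : ContDiff ℝ ∞ γ := by fun_prop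
  have hγm : ∀ t, γ t ∈ (extChartAt I x).target := fun t => by
    refine hb ?_
    rw [Metric.mem_ball, dist_eq_norm, hγ]
    simp only [add_sub_cancel_left, norm_smul, norm_mul, Real.norm_eq_abs, abs_of_pos he0]
    have h1 : e * |Real.sin (t / e)| * ‖w‖ ≤ e * 1 * ‖w‖ := by
      gcongr
      exact Real.abs_sin_le_one _
    have h2 : e * (‖w‖ + 1) = δ := div_mul_cancel₀ _ (by positivity)
    nlinarith
  have hγ0 : γ 0 = extChartAt I x x := by simp [hγ]
  have hγd : HasDerivAt γ w 0 := by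
    have h1 : HasDerivAt (fun t : ℝ => e * Real.sin (t / e)) (e * (Real.cos (0 / e) * (1 / e))) 0 :=
      (((hasDerivAt_id (0 : ℝ)).div_const e).sin).const_mul e
    have h2 := (h1.smul_const w).const_add (extChartAt I x x)
    rwa [zero_div, Real.cos_zero, one_mul, mul_one_div_cancel he0.ne', one_smul] at h2
  refine ⟨(j ∘ (extChartAt I x).symm) ∘ γ, contDiff_iff_contDiffAt.2 fun t =>
    (loc_smooth hj x (hγm t)).comp t hγs.contDiffAt, fun t => hS _, by simp [hγ0], ?_⟩
  have h3 := ((loc_smooth hj x (hγm 0)).differentiableAt (by simp)).hasFDerivAt.comp_hasDerivAt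
    0 hγd
  rw [h3.deriv, hγ0]
  exact loc_self hj x v

omit [I.Boundaryless] [IsManifold I ∞ N] in
theorem der_within {j : N → F} (hj : ContMDiff I 𝓘(ℝ, F) ∞ j) {γ : ℝ → N} {s : Set ℝ} {t : ℝ}
    {C : TangentSpace 𝓘(ℝ) t →L[ℝ] TangentSpace I (γ t)} (h : HasMFDerivWithinAt 𝓘(ℝ) I γ s t C) :
    HasDerivWithinAt (j ∘ γ) (mvfderiv I j (γ t) (C (1 : ℝ))) s t := by
  have h1 : HasFDerivWithinAt (j ∘ γ)
      ((mvfderiv I j (γ t)).comp (show ℝ →L[ℝ] TangentSpace I (γ t) from C)) s t :=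
    hasMFDerivWithinAt_iff_hasFDerivWithinAt.1
      (((hj _).mdifferentiableAt (by simp)).hasMFDerivAt.comp_hasMFDerivWithinAt t h)
  exact h1.hasDerivWithinAt

omit [I.Boundaryless] [IsManifold I ∞ N] in
theorem der_at {j : N → F} (hj : ContMDiff I 𝓘(ℝ, F) ∞ j) {γ : ℝ → N} {t : ℝ}
    (h : MDifferentiableAt 𝓘(ℝ) I γ t) :
    HasDerivAt (j ∘ γ) (mvfderiv I j (γ t) (mfderiv 𝓘(ℝ) I γ t (1 : ℝ))) t :=
  hasDerivWithinAt_univ.1 (der_within hj h.hasMFDerivAt.hasMFDerivWithinAt)

/-- The exterior derivative of the pull-back of the form `⟪p, dq⟫`. -/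
theorem dOne_pull {V : Type} [NormedAddCommGroup V] [InnerProductSpace ℝ V] {j : N → V × V}
    (hj : ContMDiff I 𝓘(ℝ, V × V) ∞ j) {α : ∀ x : N, TangentSpace I x →L[ℝ] ℝ}
    (hα : ∀ x v, α x v = H57.lam (j x) (mvfderiv I j x v)) (x : N) (u v : TangentSpace I x) :
    dOne I α x u v = H57.om (mvfderiv I j x u) (mvfderiv I j x v) := by
  set g := j ∘ (extChartAt I x).symm with hg
  set y₀ := extChartAt I x x with hy
  have hT := (isOpen_extChartAt_target (I := I) x).mem_nhds (mem_extChartAt_target x)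
  have hs : ContDiffAt ℝ ∞ g y₀ := loc_smooth hj x (mem_extChartAt_target x)
  have h1 : HasFDerivAt g (fderiv ℝ g y₀) y₀ := (hs.differentiableAt (by simp)).hasFDerivAt
  have h2 : HasFDerivAt (fderiv ℝ g) (fderiv ℝ (fderiv ℝ g) y₀) y₀ :=
    ((hs.fderiv_right (m := ∞) (by simp)).differentiableAt (by simp)).hasFDerivAt
  have key : ∀ a b : E, fderiv ℝ (coef I α x b) y₀ a =
      inner ℝ (g y₀).2 (fderiv ℝ (fderiv ℝ g) y₀ a b).1 +
        inner ℝ (fderiv ℝ g y₀ a).2 (fderiv ℝ g y₀ b).1 := by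
    intro a b
    have h3 : coef I α x b =ᶠ[𝓝 y₀] fun y => inner ℝ (g y).2 (fderiv ℝ g y b).1 := by
      filter_upwards [hT] with y hy
      rw [coef, hα, hg, loc_fderiv hj x hy]
      rfl
    have h4 : HasFDerivAt (fun y => (fderiv ℝ g y b).1) _ y₀ :=
      hasFDerivAt_fst.comp y₀ ((ContinuousLinearMap.apply ℝ (V × V) b).hasFDerivAt.comp y₀ h2)
    have h5 : HasFDerivAt (fun y => (g y).2) _ y₀ := hasFDerivAt_snd.comp y₀ h1
    rw [h3.fderiv_eq, (h5.inner ℝ h4).fderiv]
    rfl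
  have hsym := hs.isSymmSndFDerivAt (by simpa using ENat.LEInfty.out)
  have h6 : ∀ a b : E, fderiv ℝ (coef I α x b) y₀ a - fderiv ℝ (coef I α x a) y₀ b =
      H57.om (fderiv ℝ g y₀ a) (fderiv ℝ g y₀ b) := fun a b => by
    rw [key, key, hsym.eq a b, H57.om]
    ring
  rw [dOne, chart_self, chart_self, ← loc_self hj, ← loc_self hj]
  exact h6 u v

end Vale.Agent.P220Z.Abs
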