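import Vale.Agent.P220Z.Abs.CotM
import Vale.Agent.P220.R2.H180.Slice

/-!
# P220: a counterexample in a Euclidean space gives a counterexample for abstract manifolds
-/

open Set Filter Topology Bundle
open scoped ContDiff Manifold

namespace Vale.Agent.P220Z.Abs

open Vale.Agent.P220.R2

variable {E V : Type} [NormedAddCommGroup E] [NormedSpace ℝ E] [FiniteDimensional ℝ E]
  [NormedAddCommGroup V] [InnerProductSpace ℝ V] [FiniteDimensional ℝ V]
  {Q : Type} [TopologicalSpace Q] [ChartedSpace E Q] [IsManifold 𝓘(ℝ, E) ∞ Q]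
  {S U : Set V} {r : V → V} {j : Q → V} {R : V → Q}

theorem Emb.lag (h : Emb E S U r j R) {M : Type} [TopologicalSpace M] [ChartedSpace E M]
    [IsManifold 𝓘(ℝ, E) ∞ M] {L U' : Set (V × V)} {r' : V × V → V × V} {i : M → V × V}
    {R' : V × V → M} (h' : Emb E L U' r' i R') (hL : L ⊆ H57.Cot S) {f : V × V → ℝ}
    (hf : ContDiff ℝ ∞ f) (he : ∀ z ∈ L, ∀ v ∈ H57.Tan L z, fderiv ℝ f z v = H57.lam z v) :
    IsExactLag fun x => Th E j R (i x) := by
  have hs : ContMDiff 𝓘(ℝ, E) (IC E) ∞ fun x => Th E j R (i x) := fun x =>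
    (h.Th_smooth (h.ret.sub (hL (h'.mem x)).1)).comp x (h'.sj x)
  have hP : ∀ x, Ps j (Th E j R (i x)) = i x := fun x => h.Ps_Th (hL (h'.mem x))
  have hc : Ps j ∘ (fun x => Th E j R (i x)) = i := funext hP
  have hd : ∀ x v, mvfderiv (IC E) (Ps j) (Th E j R (i x))
      (mfderiv 𝓘(ℝ, E) (IC E) (fun x => Th E j R (i x)) x v) = mvfderiv 𝓘(ℝ, E) i x v := by
    intro x v
    have h1 := mfderiv_comp x ((h.Ps_smooth _).mdifferentiableAt (by simp))
      ((hs x).mdifferentiableAt (by simp))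
    rw [hc] at h1
    exact (congrArg (fun C : E →L[ℝ] V × V => C v) h1).symm
  have hT := tan_of h'.sj h'.mem
  refine ⟨hs, fun x u v huv => h'.dj_inj x ?_, IsEmbedding.of_comp hs.continuous
    h.Ps_smooth.continuous (hc.symm ▸ h'.emb), fun x u v => ?_, f ∘ i,
    hf.comp_contMDiff h'.sj, fun x v => ?_⟩
  · rw [← hd, ← hd, huv]
  · rw [h.om_eq, hd, hd, H57.om, sub_eq_zero]
    exact H180.isotropic h'.ret hf (fun z hz v hv => he z hz v ((h'.ret.mem_Tan hz).2 hv))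
      (h'.mem x) ((h'.ret.mem_Tan (h'.mem x)).1 (hT x u)) ((h'.ret.mem_Tan (h'.mem x)).1 (hT x v))
  · rw [h.lam_eq, hd, hP, ← he _ (h'.mem x) _ (hT x v)]
    have h1 := mfderiv_comp x ((hf.contMDiff (i x)).mdifferentiableAt (by simp))
      ((h'.sj x).mdifferentiableAt (by simp))
    rw [mfderiv_eq_fderiv] at h1
    exact congrArg (fun C : E →L[ℝ] ℝ => C v) h1

theorem Emb.ham (h : Emb E S U r j R) {L : Set (Cot E Q)} (hL : HamIso L) :
    Top.HamIsoG S (Ps j '' L) := by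
  obtain ⟨H, φ, ⟨hs, K, hK, hK0⟩, ⟨X, hX, h0, hφ⟩, rfl⟩ := hL
  have hP := h.Ps_smooth
  refine ⟨fun t z => H (t, Th E j R z), fun s z => Ps j (φ s (Th E j R z)),
    ⟨fun t _ z hz => ⟨univ ×ˢ U ×ˢ univ, prod_mem_nhds univ_mem (prod_mem_nhds
      (h.ret.isOpen.mem_nhds (h.ret.sub hz.1)) univ_mem), fun y => H (y.1, Th E j R y.2), ?_,
      fun _ _ _ _ => rfl⟩, Ps j '' K, image_subset_iff.2 fun ζ _ => h.Ps_mem ζ,
      hK.image hP.continuous, fun t ht z hz hzK => hK0 t ht _ fun h1 => hzK ⟨_, h1, h.Ps_Th hz⟩⟩,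
    ⟨fun z hz => by beta_reduce; rw [h0, h.Ps_Th hz], fun z hz s hs' => ?_⟩, ?_⟩
  · refine contMDiffOn_iff_contDiffOn.1 (hs.comp (fun y hy => ?_) fun y hy => ⟨hy.2.1, mem_univ _⟩)
    exact (contDiffAt_fst.contMDiffAt.prodMk
      ((h.Th_smooth hy.1.2.1).comp y contDiffAt_snd.contMDiffAt)).contMDiffWithinAt
  · set ζ := φ s (Th E j R z) with hζ
    refine ⟨h.Ps_mem _, mvfderiv (IC E) (Ps j) ζ (X s ζ), tan_of hP h.Ps_mem _ _, ?_,
      fun c hc hcS hc0 => ?_⟩
    · have h1 := der_within hP (hφ (Th E j R z) s hs')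
      have h2 : ((1 : ℝ →L[ℝ] ℝ).smulRight (X s ζ)) (1 : ℝ) = X s ζ := one_smul ℝ _
      exact h2 ▸ h1
    · have h1 : Th E j R (c 0) = ζ := by rw [hc0, h.Th_Ps]
      have h2 : MDifferentiableAt 𝓘(ℝ) (IC E) (fun t => Th E j R (c t)) 0 :=
        ((h.Th_smooth (h.ret.sub (hcS 0).1)).comp 0 (hc.contMDiff 0)).mdifferentiableAt (by simp)
      have h3 : ContMDiff (IC E) 𝓘(ℝ) ∞ fun y => H (s, y) := contMDiffOn_univ.1
        (hs.comp (contMDiff_const.prodMk contMDiff_id).contMDiffOn fun y _ => ⟨hs', mem_univ _⟩)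
      have h4 := der_at h3 h2
      have h5 := der_at hP h2
      rw [show Ps j ∘ (fun t => Th E j R (c t)) = c from funext fun t => h.Ps_Th (hcS t)] at h5
      have h6 := hX s hs' (Th E j R (c 0))
        (mfderiv 𝓘(ℝ) (IC E) (fun t => Th E j R (c t)) 0 (1 : ℝ))
      rw [← h1, h5.deriv, ← h.om_eq, h6, neg_neg]
      exact h4
  · rw [image_image]
    ext y
    constructor
    · rintro ⟨z, ⟨-, hz⟩, rfl⟩
      refine ⟨Th E j R z, ?_, rfl⟩
      change (flat z.2).comp _ = 0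
      rw [hz, map_zero, ContinuousLinearMap.zero_comp]
    · rintro ⟨ζ, hζ, rfl⟩
      refine ⟨Ps j ζ, ⟨h.mem _, ?_⟩, by beta_reduce; rw [h.Th_Ps]⟩
      have h1 : ζ.2 = 0 := hζ
      change sol (E := E) _ ζ.2 = 0
      rw [h1]
      exact (congrArg _ (map_zero _)).trans (map_zero _)

/-- The transfer to abstract manifolds. -/
theorem transfer {n : ℕ} (hn : Module.finrank ℝ E = n) {S : Set V} {L : Set (V × V)}
    (hS : H57.IsClosedManifold n S) (hL : H57.IsExactLagrangian n S L)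
    (hH : ¬ H57.HamIsotopicToZero S L) :
    ∃ (Q : Type) (_ : TopologicalSpace Q) (_ : T2Space Q) (_ : CompactSpace Q)
      (_ : ConnectedSpace Q) (_ : ChartedSpace E Q) (_ : IsManifold 𝓘(ℝ, E) ∞ Q)
      (M : Type) (_ : TopologicalSpace M) (_ : T2Space M) (_ : CompactSpace M)
      (_ : ConnectedSpace M) (_ : ChartedSpace E M) (_ : IsManifold 𝓘(ℝ, E) ∞ M)
      (ι : M → Cot E Q), IsExactLag ι ∧ ¬ HamIso (range ι) := by
  obtain ⟨Q, _, _, _, _, _, _, U, r, j, R, h⟩ := exists_emb hn hS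
  obtain ⟨M, _, _, _, _, _, _, U', r', i, R', h'⟩ := exists_emb hn hL.closed
  obtain ⟨f, hf, he⟩ := hL.exact
  refine ⟨Q, inferInstance, inferInstance, inferInstance, inferInstance, inferInstance,
    inferInstance, M, inferInstance, inferInstance, inferInstance, inferInstance, inferInstance,
    inferInstance, _, h.lag h' hL.sub hf he, fun h1 => hH (Top.HamIsoG.toZero hS ?_)⟩
  have h2 := h.ham h1
  rwa [← range_comp, show Ps j ∘ (fun x => Th E j R (i x)) = i from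
    funext fun x => h.Ps_Th (hL.sub (h'.mem x)), h'.range_eq] at h2

end Vale.Agent.P220Z.Abs
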