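import Vale.Agent.P220Z.Abs.CotM

/-!
# P220: the form `ω` in the chart of the cotangent bundle
-/

open Set Filter Topology Bundle
open scoped ContDiff Manifold

namespace Vale.Agent.P220Z.Abs

variable {E : Type} [NormedAddCommGroup E] [NormedSpace ℝ E]
  {Q : Type} [TopologicalSpace Q] [ChartedSpace E Q] [IsManifold 𝓘(ℝ, E) ∞ Q]

theorem chart_eq (z ζ : Cot E Q) :
    extChartAt (IC E) z ζ = (extChartAt 𝓘(ℝ, E) z.1 ζ.1, cv z.1 ζ) := by
  have h := hom_chart (HB := E) z ζ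
  rw [coord_eq] at h
  exact congrArg (IC E) h

theorem src_eq {z ζ : Cot E Q} (h : ζ ∈ (extChartAt (IC E) z).source) :
    ζ.1 ∈ (chartAt E z.1).source := by
  rw [FiberBundle.extChartAt] at h
  have h1 := (trivializationAt _ _ z.1).mem_source.1 h.1
  rw [hom_trivializationAt_baseSet] at h1
  exact h1.1

theorem coef_lam (z : Cot E Q) (v : E × (E →L[ℝ] ℝ)) {y : E × (E →L[ℝ] ℝ)}
    (hy : y ∈ (extChartAt (IC E) z).target) : coef (IC E) lam z v y = y.2 v.1 := by
  set c := extChartAt (IC E) z with hc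
  have hs := src_eq (c.map_target hy)
  have h1 : MDifferentiableAt (IC E) 𝓘(ℝ, E) (TotalSpace.proj : Cot E Q → Q) (c.symm y) :=
    (contMDiff_proj _ (n := ∞) _).mdifferentiableAt (by simp)
  have h2 := (mdifferentiableAt_extChartAt (I := 𝓘(ℝ, E)) hs).hasMFDerivAt.comp y
    (h1.hasMFDerivAt.comp y ((symm_smooth z hy).mdifferentiableAt (by simp)).hasMFDerivAt)
  have h3 : (extChartAt 𝓘(ℝ, E) z.1 ∘ TotalSpace.proj ∘ c.symm) =ᶠ[𝓝 y] Prod.fst := by
    filter_upwards [(isOpen_extChartAt_target z).mem_nhds hy] with x hx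
    exact congrArg Prod.fst ((chart_eq z _).symm.trans (c.right_inv hx))
  have h4 := (h2.congr_of_eventuallyEq h3.symm).mfderiv.symm.trans
    (ContinuousLinearMap.fst ℝ E (E →L[ℝ] ℝ)).hasMFDerivAt.mfderiv
  rw [← TangentBundle.continuousLinearMapAt_trivializationAt hs] at h4
  have h5 := congrArg (tr E z.1 (c.symm y).1) (congrArg (fun C : E × (E →L[ℝ] ℝ) →L[ℝ] E => C v) h4)
  have h6 := (trivializationAt E (TangentSpace 𝓘(ℝ, E)) z.1).symmL_continuousLinearMapAt (R := ℝ) hs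
    (mfderiv (IC E) 𝓘(ℝ, E) TotalSpace.proj (c.symm y)
      (mfderiv 𝓘(ℝ, E × (E →L[ℝ] ℝ)) (IC E) c.symm y v))
  have h7 : y.2 = cv z.1 (c.symm y) :=
    congrArg Prod.snd ((c.right_inv hy).symm.trans (chart_eq z _))
  rw [h7]
  exact congrArg (c.symm y).2 (h6.symm.trans h5)

/-- In the chart at `z` the form `ω` is `dp ∧ dq`. -/
theorem om_chart (z : Cot E Q) (u v : E × (E →L[ℝ] ℝ)) : om z u v = u.2 v.1 - v.2 u.1 := by
  have key : ∀ a b : E × (E →L[ℝ] ℝ),
      fderiv ℝ (coef (IC E) lam z b) (extChartAt (IC E) z z) a = a.2 b.1 := by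
    intro a b
    have h1 : coef (IC E) lam z b =ᶠ[𝓝 (extChartAt (IC E) z z)]
        (ContinuousLinearMap.apply ℝ ℝ b.1).comp (ContinuousLinearMap.snd ℝ E (E →L[ℝ] ℝ)) := by
      filter_upwards [(isOpen_extChartAt_target z).mem_nhds (mem_extChartAt_target z)] with y hy
      exact coef_lam z b hy
    rw [h1.fderiv_eq, ContinuousLinearMap.fderiv]
    rfl
  have h1 := chart_self (I := IC E) z u
  have h2 := chart_self (I := IC E) z v
  unfold om dOne
  rw [h1, h2]
  exact congrArg₂ (· - ·) (key u v) (key v u)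

/-- The zero section is Hamiltonian isotopic to itself. -/
theorem hamIso_zero : HamIso {z : Cot E Q | z.2 = 0} := by
  refine ⟨fun _ => 0, fun _ z => z, ⟨contMDiffOn_const, ∅, isCompact_empty, fun _ _ _ _ => rfl⟩,
    ⟨fun _ _ => 0, fun t _ z v => ?_, fun _ => rfl, fun z t _ => ?_⟩, image_id _⟩
  · rw [mvfderiv_const]
    exact (om_chart z 0 v).trans (by simp)
  · exact (hasMFDerivWithinAt_const z _ t).congr_mfderiv (ContinuousLinearMap.ext fun s =>
      (smul_zero (A := E × (E →L[ℝ] ℝ)) (show ℝ from s)).symm)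

end Vale.Agent.P220Z.Abs
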