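import Mathlib

/-!
# P220: cotangent bundles, exact Lagrangians and Hamiltonian isotopies for abstract manifolds

Manifolds, tangent spaces, differentials and the bundle of linear forms are the ones of Mathlib.
The first part is about a manifold `N` with a one-form `α`; it is applied to `T*Q` with its
canonical one-form.
-/

open Set Bundle
open scoped ContDiff Manifold

namespace Vale.Agent.P220Z.Mf

section Forms

variable {F G N : Type} [NormedAddCommGroup F] [NormedSpace ℝ F] [TopologicalSpace G]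
  (I : ModelWithCorners ℝ F G) [TopologicalSpace N] [ChartedSpace G N]
  (α : ∀ x : N, TangentSpace I x →L[ℝ] ℝ)

/-- The coefficient `α(∂_v)` of the one-form `α` in the chart at `x`, as a function of the
coordinates `y`; here `∂_v` is the vector field that is constant and equal to `v` in this chart. -/
noncomputable def coef (x : N) (v y : F) : ℝ :=
  α ((extChartAt I x).symm y) (mfderiv 𝓘(ℝ, F) I (extChartAt I x).symm y v)

/-- The exterior derivative of the one-form `α` at `x`, computed in the chart at `x`: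
`dα(u, v) = ∂_u α(∂_v) - ∂_v α(∂_u)`. -/
noncomputable def dOne (x : N) (u v : TangentSpace I x) : ℝ :=
  fderiv ℝ (coef I α x (mvfderiv I (extChartAt I x) x v)) (extChartAt I x x)
      (mvfderiv I (extChartAt I x) x u) -
    fderiv ℝ (coef I α x (mvfderiv I (extChartAt I x) x u)) (extChartAt I x x)
      (mvfderiv I (extChartAt I x) x v)

/-- `ι : M → N` is a smooth embedding on which `ω = dα` vanishes and `α` is exact. -/
structure IsExact (E : Type) [NormedAddCommGroup E] [NormedSpace ℝ E] {M : Type}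
    [TopologicalSpace M] [ChartedSpace E M] (ι : M → N) : Prop where
  /-- smooth -/
  smooth : ContMDiff 𝓘(ℝ, E) I ∞ ι
  /-- an immersion -/
  imm : ∀ x, Function.Injective (mfderiv 𝓘(ℝ, E) I ι x)
  /-- a homeomorphism onto its image -/
  emb : Topology.IsEmbedding ι
  /-- `ω` vanishes on the image -/
  lag : ∀ x u v, dOne I α (ι x) (mfderiv 𝓘(ℝ, E) I ι x u) (mfderiv 𝓘(ℝ, E) I ι x v) = 0
  /-- `α` is exact on the image -/
  exact : ∃ f : M → ℝ, ContMDiff 𝓘(ℝ, E) 𝓘(ℝ) ∞ f ∧
    ∀ x v, mvfderiv 𝓘(ℝ, E) f x v = α (ι x) (mfderiv 𝓘(ℝ, E) I ι x v)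

/-- `H` is a smooth function on `[0, 1] × N` with support in one compact subset of `N`. -/
structure IsHam (H : ℝ × N → ℝ) : Prop where
  /-- smooth -/
  smooth : ContMDiffOn (𝓘(ℝ).prod I) 𝓘(ℝ) ∞ H (Icc 0 1 ×ˢ univ)
  /-- compact support -/
  supp : ∃ K, IsCompact K ∧ ∀ t ∈ Icc (0 : ℝ) 1, ∀ z ∉ K, H (t, z) = 0

/-- The curve `c` has the velocity `w` at the time `t` of `[0, 1]`. -/
def HasVel (c : ℝ → N) (t : ℝ) (w : TangentSpace I (c t)) : Prop :=
  ∃ D, HasMFDerivWithinAt 𝓘(ℝ) I c (Icc 0 1) t D ∧ D (1 : ℝ) = w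

/-- `φ t`, `0 ≤ t ≤ 1`, is the flow of the Hamiltonian vector field `X` of `H`, which is given by
`ι_X ω = -dH` with `ω = dα`. -/
def IsFlow (H : ℝ × N → ℝ) (φ : ℝ → N → N) : Prop :=
  ∃ X : ℝ → ∀ z : N, TangentSpace I z,
    (∀ t ∈ Icc (0 : ℝ) 1, ∀ z v, dOne I α z (X t z) v = -mvfderiv I (fun y => H (t, y)) z v) ∧
    (∀ z, φ 0 z = z) ∧ ∀ z, ∀ t ∈ Icc (0 : ℝ) 1, HasVel I (fun s => φ s z) t (X t (φ t z))

/-- `Z` is Hamiltonian isotopic to `L`. -/
def HamIso (Z L : Set N) : Prop :=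
  ∃ (H : ℝ × N → ℝ) (φ : ℝ → N → N), IsHam I H ∧ IsFlow I α H φ ∧ φ 1 '' Z = L

end Forms

variable (E : Type) [NormedAddCommGroup E] [NormedSpace ℝ E]

/-- The model `E × E*` of the cotangent bundle of a manifold with the model `E`. -/
noncomputable def IC := 𝓘(ℝ, E).prod 𝓘(ℝ, E →L[ℝ] ℝ)

variable (Q : Type) [TopologicalSpace Q] [ChartedSpace E Q] [IsManifold 𝓘(ℝ, E) ∞ Q]

/-- The cotangent bundle `T*Q`: the total space of the bundle of the linear forms on the tangent
spaces. -/
def Cot : Type :=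
  TotalSpace (E →L[ℝ] ℝ) fun q : Q => TangentSpace 𝓘(ℝ, E) q →L[ℝ] Trivial Q ℝ q

/-- The topology of `T*Q` is the one that Mathlib puts on the total space. -/
noncomputable instance topCot : TopologicalSpace (Cot E Q) :=
  Bundle.ContinuousLinearMap.topologicalSpaceTotalSpace (RingHom.id ℝ) E (TangentSpace 𝓘(ℝ, E)) ℝ
    (Trivial Q ℝ)

/-- The charts of `T*Q` are the ones that Mathlib puts on the total space. -/
noncomputable instance chartCot : ChartedSpace (ModelProd E (E →L[ℝ] ℝ)) (Cot E Q) :=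
  FiberBundle.chartedSpace (HB := E) (F := E →L[ℝ] ℝ)
    (E := fun q : Q => TangentSpace 𝓘(ℝ, E) q →L[ℝ] Trivial Q ℝ q)

/-- The projection `π : T*Q → Q`. -/
def pr (z : Cot E Q) : Q := z.1

/-- The covector `p` of the point `(q, p)`. -/
def cov (z : Cot E Q) : TangentSpace 𝓘(ℝ, E) (pr E Q z) →L[ℝ] ℝ := z.2

/-- The canonical one-form `λ_(q,p)(v) = p(dπ(v))`. -/
noncomputable def lam (z : Cot E Q) : TangentSpace (IC E) z →L[ℝ] ℝ :=
  (cov E Q z).comp (mfderiv (IC E) 𝓘(ℝ, E) (pr E Q) z)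

/-- The zero section. -/
def zero : Set (Cot E Q) := {z | cov E Q z = 0}

/-- There is an exact Lagrangian embedding of a closed connected manifold `M`, of the same
dimension as `Q`, into `T*Q` whose image is not Hamiltonian isotopic to the zero section. -/
def HasExotic : Prop :=
  ∃ (M : Type) (_ : TopologicalSpace M) (_ : T2Space M) (_ : CompactSpace M)
    (_ : ConnectedSpace M) (_ : ChartedSpace E M) (_ : IsManifold 𝓘(ℝ, E) ∞ M) (ι : M → Cot E Q),
    IsExact (IC E) (lam E Q) E ι ∧ ¬ HamIso (IC E) (lam E Q) (zero E Q) (range ι)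

/-- Every compactly supported Hamiltonian on `T*Q` has a flow. -/
def HasFlows : Prop := ∀ H, IsHam (IC E) H → ∃ φ, IsFlow (IC E) (lam E Q) H φ

end Vale.Agent.P220Z.Mf
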