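import Vale.Agent.P220Z.Abs.Gen

/-!
# P220: a closed submanifold of a vector space as an abstract manifold
-/

open Set Filter Topology
open scoped ContDiff Manifold

namespace Vale.Agent.P220Z.Abs

open Vale.Agent.P220.R2.H57 (IsRet IsSubmanifold IsClosedManifold Tan exists_ret exists_projection)

variable {E F : Type} [NormedAddCommGroup E] [NormedSpace ℝ E] [NormedAddCommGroup F]
  [NormedSpace ℝ F]

/-- local coordinates `g` and a local parametrisation `ψ` of the set `S` -/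
structure Slice (E : Type) [NormedAddCommGroup E] [NormedSpace ℝ E] (S : Set F) (x : S) where
  /-- the domain -/
  O : Set F
  /-- the range -/
  V : Set E
  /-- the coordinates -/
  g : F → E
  /-- the parametrisation -/
  ψ : E → F
  hO : IsOpen O
  hx : x.1 ∈ O
  hV : IsOpen V
  sg : ContDiffOn ℝ ∞ g O
  sψ : ContDiffOn ℝ ∞ ψ V
  left : ∀ y ∈ S, y ∈ O → g y ∈ V ∧ ψ (g y) = y
  right : ∀ v ∈ V, ψ v ∈ S ∧ ψ v ∈ O ∧ g (ψ v) = v

theorem exists_slice [FiniteDimensional ℝ E] [FiniteDimensional ℝ F] {n : ℕ}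
    (hn : Module.finrank ℝ E = n) {S : Set F} (h : IsSubmanifold n S) (x : S) :
    Nonempty (Slice E S x) := by
  obtain ⟨Φ, W, hxs, hΦ, hΦs, hW, hS⟩ := h x x.2
  obtain ⟨P, hPW, hPf⟩ := exists_projection W
  let e : W ≃L[ℝ] E := ContinuousLinearEquiv.ofFinrankEq (hW.trans hn.symm)
  let a : F →L[ℝ] E := e.toContinuousLinearMap.comp (P.codRestrict W hPW)
  let b : E →L[ℝ] F := W.subtypeL.comp e.symm.toContinuousLinearMap
  have hb : ∀ v, b v ∈ W := fun v => (e.symm v).2
  have hab : ∀ v, a (b v) = v := fun v => by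
    have h1 : P.codRestrict W hPW (b v) = e.symm v := Subtype.ext (hPf _ (hb v))
    change e (P.codRestrict W hPW (b v)) = v
    rw [h1, e.apply_symm_apply]
  have hba : ∀ y ∈ W, b (a y) = y := fun y hy => by
    change ((e.symm (e (P.codRestrict W hPW y)) : W) : F) = y
    rw [e.symm_apply_apply]
    exact hPf y hy
  refine ⟨⟨Φ.source, b ⁻¹' Φ.target, fun y => a (Φ y), fun v => Φ.symm (b v), Φ.open_source, hxs,
    Φ.open_target.preimage b.continuous, a.contDiff.comp_contDiffOn hΦ,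
    hΦs.comp b.contDiff.contDiffOn fun _ h => h, fun y hy hyO => ?_, fun v hv => ?_⟩⟩
  · rw [mem_preimage, hba _ ((hS y hyO).1 hy)]
    exact ⟨Φ.map_source hyO, Φ.left_inv hyO⟩
  · refine ⟨(hS _ (Φ.map_target hv)).2 ?_, Φ.map_target hv, ?_⟩
    · rw [Φ.right_inv hv]
      exact hb v
    · rw [Φ.right_inv hv, hab]

open Classical in
/-- a point of `S` -/
noncomputable def toS {S : Set F} (x : S) (y : F) : S := if h : y ∈ S then ⟨y, h⟩ else x

omit [NormedAddCommGroup F] [NormedSpace ℝ F] in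
theorem toS_val {S : Set F} (x : S) {y : F} (h : y ∈ S) : (toS x y).1 = y := by
  rw [toS, dif_pos h]

/-- the chart -/
noncomputable def Slice.chart {S : Set F} {x : S} (c : Slice E S x) : OpenPartialHomeomorph S E where
  toFun y := c.g y.1
  invFun v := toS x (c.ψ v)
  source := Subtype.val ⁻¹' c.O
  target := c.V
  map_source' y hy := (c.left y.1 y.2 hy).1
  map_target' v hv := by
    rw [mem_preimage, toS_val x (c.right v hv).1]
    exact (c.right v hv).2.1
  left_inv' y hy := Subtype.ext (by rw [(c.left y.1 y.2 hy).2, toS_val x y.2])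
  right_inv' v hv := by rw [toS_val x (c.right v hv).1, (c.right v hv).2.2]
  open_source := c.hO.preimage continuous_subtype_val
  open_target := c.hV
  continuousOn_toFun := c.sg.continuousOn.comp continuous_subtype_val.continuousOn fun _ h => h
  continuousOn_invFun := IsInducing.subtypeVal.continuousOn_iff.2
    (c.sψ.continuousOn.congr fun v hv => toS_val x (c.right v hv).1)

/-- the atlas -/
@[reducible] noncomputable def chs {S : Set F} (c : ∀ x : S, Slice E S x) : ChartedSpace E S where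
  atlas := range fun x => (c x).chart
  chartAt x := (c x).chart
  mem_chart_source x := (c x).hx
  chart_mem_atlas x := ⟨x, rfl⟩

theorem chs_mfd {S : Set F} (c : ∀ x : S, Slice E S x) :
    letI := chs c
    IsManifold 𝓘(ℝ, E) ∞ S := by
  let _ := chs c
  refine isManifold_of_contDiffOn _ _ _ ?_
  rintro _ _ ⟨x, rfl⟩ ⟨x', rfl⟩
  have h : ContDiffOn ℝ ∞ ((c x').g ∘ (c x).ψ) ((c x).V ∩ (c x).ψ ⁻¹' (c x').O) :=
    (c x').sg.comp ((c x).sψ.mono inter_subset_left) fun _ h => h.2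
  refine (h.mono fun v hv => ?_).congr fun v hv => ?_
  · have h1 : v ∈ (c x).V := hv.1.1
    have h2 : (toS x ((c x).ψ v)).1 ∈ (c x').O := hv.1.2
    exact ⟨h1, by rwa [toS_val x ((c x).right v h1).1] at h2⟩
  · have h1 : v ∈ (c x).V := hv.1.1
    change (c x').g (toS x ((c x).ψ v)).1 = (c x').g ((c x).ψ v)
    rw [toS_val x ((c x).right v h1).1]

/-- `j` identifies the manifold `M` with `S`, and `R` is a smooth retraction near `S`. -/
structure Emb (E : Type) [NormedAddCommGroup E] [NormedSpace ℝ E] {M : Type} [TopologicalSpace M]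
    [ChartedSpace E M] (S U : Set F) (r : F → F) (j : M → F) (R : F → M) : Prop where
  ret : IsRet S U r
  sj : ContMDiff 𝓘(ℝ, E) 𝓘(ℝ, F) ∞ j
  emb : IsEmbedding j
  mem : ∀ x, j x ∈ S
  sR : ∀ y ∈ U, ContMDiffAt 𝓘(ℝ, F) 𝓘(ℝ, E) ∞ R y
  Rj : ∀ x, R (j x) = x
  jR : ∀ y ∈ U, j (R y) = r y

theorem chs_emb {S U : Set F} {r : F → F} (hr : IsRet S U r) (c : ∀ x : S, Slice E S x) (x₀ : S) :
    letI := chs c
    Emb E S U r (Subtype.val : S → F) fun y => toS x₀ (r y) := by
  let _ := chs c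
  refine ⟨hr, fun x => ?_, IsEmbedding.subtypeVal, fun x => x.2, fun y hy => ?_,
    fun x => Subtype.ext ?_, fun y hy => toS_val x₀ (hr.maps y hy)⟩
  · refine contMDiffAt_iff.2 ⟨continuous_subtype_val.continuousAt, ?_⟩
    have h1 : (c x).g x.1 ∈ (c x).V := ((c x).left x.1 x.2 (c x).hx).1
    refine ContDiffAt.contDiffWithinAt
      (((c x).sψ.contDiffAt ((c x).hV.mem_nhds h1)).congr_of_eventuallyEq ?_)
    filter_upwards [(c x).hV.mem_nhds h1] with v hv
    exact toS_val x ((c x).right v hv).1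
  · have h1 : (fun y => (toS x₀ (r y)).1) =ᶠ[𝓝 y] r := by
      filter_upwards [hr.isOpen.mem_nhds hy] with z hz
      exact toS_val x₀ (hr.maps z hz)
    refine contMDiffAt_iff.2 ⟨IsInducing.subtypeVal.continuousAt_iff.2
      (hr.smooth.continuous.continuousAt.congr h1.symm), ContDiffAt.contDiffWithinAt ?_⟩
    have h2 : r y ∈ (c (toS x₀ (r y))).O := by
      have := (c (toS x₀ (r y))).hx
      rwa [toS_val x₀ (hr.maps y hy)] at this
    refine (((c _).sg.contDiffAt ((c _).hO.mem_nhds h2)).comp y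
      hr.smooth.contDiffAt).congr_of_eventuallyEq ?_
    filter_upwards [h1] with z hz
    exact congrArg (c (toS x₀ (r y))).g hz
  · rw [hr.fix x.1 x.2, toS_val x₀ x.2]

theorem exists_emb [FiniteDimensional ℝ E] [FiniteDimensional ℝ F] {n : ℕ}
    (hn : Module.finrank ℝ E = n) {S : Set F} (h : IsClosedManifold n S) :
    ∃ (M : Type) (_ : TopologicalSpace M) (_ : T2Space M) (_ : CompactSpace M)
      (_ : ConnectedSpace M) (_ : ChartedSpace E M) (_ : IsManifold 𝓘(ℝ, E) ∞ M) (U : Set F)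
      (r : F → F) (j : M → F) (R : F → M), Emb E S U r j R := by
  obtain ⟨U, r, hr, -⟩ := exists_ret h.sub h.compact
  obtain ⟨x₀, hx₀⟩ := h.conn.nonempty
  let c : ∀ x : S, Slice E S x := fun x => (exists_slice hn h.sub x).some
  exact ⟨S, inferInstance, inferInstance, isCompact_iff_compactSpace.1 h.compact,
    isConnected_iff_connectedSpace.1 h.conn, chs c, chs_mfd c, U, r, _, _, chs_emb hr c ⟨x₀, hx₀⟩⟩

namespace Emb

variable {M : Type} [TopologicalSpace M] [ChartedSpace E M] {S U : Set F} {r : F → F} {j : M → F}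
  {R : F → M} (h : Emb E S U r j R)

include h

theorem jR' {y : F} (hy : y ∈ S) : j (R y) = y := (h.jR y (h.ret.sub hy)).trans (h.ret.fix y hy)

theorem range_eq : range j = S :=
  subset_antisymm (range_subset_iff.2 h.mem) fun y hy => ⟨R y, h.jR' hy⟩

theorem dj_inj (x : M) : Function.Injective (mvfderiv 𝓘(ℝ, E) j x) := by
  have h1 := mfderiv_comp x ((h.sR _ (h.ret.sub (h.mem x))).mdifferentiableAt (by simp))
    ((h.sj x).mdifferentiableAt (by simp))
  rw [show R ∘ j = id from funext h.Rj, mfderiv_id] at h1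
  intro u v huv
  have h2 := congrArg (fun C : E →L[ℝ] E => C u) h1
  have h3 := congrArg (fun C : E →L[ℝ] E => C v) h1
  exact h2.trans ((congrArg (mfderiv 𝓘(ℝ, F) 𝓘(ℝ, E) R (j x)) huv).trans h3.symm)

theorem dj_surj [FiniteDimensional ℝ F] (x : M) {v : F} (hv : v ∈ Tan S (j x)) :
    ∃ u, mvfderiv 𝓘(ℝ, E) j x u = v := by
  have hx := h.ret.sub (h.mem x)
  have h1 := mfderiv_comp (j x) ((h.sj (R (j x))).mdifferentiableAt (by simp))
    ((h.sR _ hx).mdifferentiableAt (by simp))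
  have h2 : j ∘ R =ᶠ[𝓝 (j x)] r := by
    filter_upwards [h.ret.isOpen.mem_nhds hx] with z hz
    exact h.jR z hz
  rw [h2.mfderiv_eq, mfderiv_eq_fderiv] at h1
  have h3 : fderiv ℝ r (j x) v = mvfderiv 𝓘(ℝ, E) j (R (j x)) (mfderiv 𝓘(ℝ, F) 𝓘(ℝ, E) R (j x) v) :=
    congrArg (fun C : F →L[ℝ] F => C v) h1
  have h4 : ∀ y, y = x → ∀ u : TangentSpace 𝓘(ℝ, E) y,
      ∃ u', mvfderiv 𝓘(ℝ, E) j x u' = mvfderiv 𝓘(ℝ, E) j y u := by
    rintro _ rfl u
    exact ⟨u, rfl⟩
  obtain ⟨u, hu⟩ := h4 _ (h.Rj x) (mfderiv 𝓘(ℝ, F) 𝓘(ℝ, E) R (j x) v)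
  exact ⟨u, hu.trans (h3.symm.trans ((h.ret.mem_Tan (h.mem x)).1 hv))⟩

end Emb

end Vale.Agent.P220Z.Abs
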